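import Vale.Agent.P092.SD.Blocks
import Vale.Agent.P092.RC.Trans

/-!
P092, TEAM D: transport of the structure of one leg along a unitary (helper53).
-/

set_option linter.all false

open scoped InnerProductSpace ENNReal LinearAlgebra.Projectivization ZeroAtInfty
open Filter Topology ContinuousLinearMap MeasureTheory TopologicalSpace

namespace Vale.Agent.P092.SD

open Vale.Agent.P092.RC

section tw

variable {K K' : Type} [NormedAddCommGroup K] [InnerProductSpace ℂ K] [CompleteSpace K]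
  [NormedAddCommGroup K'] [InnerProductSpace ℂ K'] [CompleteSpace K']

variable (u : K ≃ₗᵢ[ℂ] K')

/-- conjugation as a homomorphism -/
noncomputable def cjH (u : K ≃ₗᵢ[ℂ] K') : (K →L[ℂ] K) →⋆ₐ[ℂ] (K' →L[ℂ] K') where
  toFun T := cj u T
  map_one' := map_one _
  map_mul' := map_mul _
  map_zero' := map_zero _
  map_add' := map_add _
  commutes' z := by
    rw [Algebra.algebraMap_eq_smul_one, Algebra.algebraMap_eq_smul_one, map_smul, map_one]
  map_star' T := (cj u).map_star' T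

/-- conjugation of a calculus -/
noncomputable def cjE {k : Type} [NontriviallyNormedField k] (u : K ≃ₗᵢ[ℂ] K')
    (β : CP k →⋆ₐ[ℂ] (K →L[ℂ] K)) : CP k →⋆ₐ[ℂ] (K' →L[ℂ] K') :=
  (cjH u).comp β

theorem cjE_ap {k : Type} [NontriviallyNormedField k] (β : CP k →⋆ₐ[ℂ] (K →L[ℂ] K)) (f : CP k) :
    cjE u β f = cj u (β f) := rfl

theorem cj_surj (T : K' →L[ℂ] K') : ∃ S : K →L[ℂ] K, cj u S = T := (cj u).surjective T

theorem surj_vec (ξ : K') : ∃ η : K, u η = ξ := u.surjective ξ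

theorem cj_norm_ap (T : K →L[ℂ] K) (ξ : K) : ‖cj u T (u ξ)‖ = ‖T ξ‖ := by
  rw [cj_ap, u.norm_map]

theorem cj_smul_one (z : ℂ) : cj u (z • (1 : K →L[ℂ] K)) = z • (1 : K' →L[ℂ] K') := by
  rw [map_smul, map_one]

variable {G Γ : Type} [Group G] [TopologicalSpace G] [Group Γ]
  {π : G →* (K →L[ℂ] K)} {lam : Γ →* (K →L[ℂ] K)}
  {W : Set (K →L[ℂ] K)} {Ω : K} {π' : G →* (K' →L[ℂ] K')} {lam' : Γ →* (K' →L[ℂ] K')}
  {W' : Set (K' →L[ℂ] K')} {Ω' : K'}

variable {u}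

theorem tw_pic (t : Tw u π lam W Ω π' lam' W' Ω') (h : Pic π lam W Ω) : Pic π' lam' W' Ω' where
  adjP g := by rw [t.pi, adjoint_cj, h.adjP, t.pi]
  contP ξ := by
    obtain ⟨η, rfl⟩ := surj_vec u ξ
    have h1 : (fun g => π' g (u η)) = fun g => u (π g η) := by
      funext g; rw [t.pi, cj_ap]
    rw [h1]
    exact u.continuous.comp (h.contP η)
  adjL γ := by rw [t.lam, adjoint_cj, h.adjL, t.lam]
  comm g γ := by rw [t.pi, t.lam, ← map_mul, ← map_mul, h.comm]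
  Wadj w hw := by
    rw [t.W] at hw ⊢
    obtain ⟨v, hv, rfl⟩ := hw
    exact ⟨adjoint v, h.Wadj v hv, (adjoint_cj u v).symm⟩
  WP w hw g := by
    rw [t.W] at hw ⊢
    obtain ⟨v, hv, rfl⟩ := hw
    exact ⟨_, h.WP v hv g, by rw [t.pi, t.pi, map_mul, map_mul]⟩
  WL w hw γ := by
    rw [t.W] at hw
    obtain ⟨v, hv, rfl⟩ := hw
    rw [t.lam, ← map_mul, ← map_mul, h.WL v hv]
  nΩ := by rw [t.Om, u.norm_map, h.nΩ]
  erg S hS T hT h1 h2 := by
    obtain ⟨T, rfl⟩ := cj_surj u T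
    rw [t.W] at hT
    obtain ⟨z, hz⟩ := h.erg S hS T ((cm_cj u).1 hT)
      (fun γ => by
        have h3 := h1 γ
        rw [t.lam] at h3
        exact (cj_comm u).1 h3)
      (fun g hg => by
        have h3 := h2 g hg
        rw [t.pi] at h3
        exact (cj_comm u).1 h3)
    exact ⟨z, by rw [hz, cj_smul_one]⟩
  tr_adj T hT := by
    obtain ⟨T, rfl⟩ := cj_surj u T
    rw [t.W] at hT
    rw [adjoint_cj, t.trn, t.trn, h.tr_adj T ((cm_cj u).1 hT)]
  tr_conj T hT g := by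
    obtain ⟨T, rfl⟩ := cj_surj u T
    rw [t.W] at hT
    rw [t.pi, t.pi, ← map_mul, ← map_mul, t.trn, t.trn, h.tr_conj T ((cm_cj u).1 hT)]
  tr_zero T hT h0 := by
    obtain ⟨T, rfl⟩ := cj_surj u T
    rw [t.W] at hT
    rw [t.trn] at h0
    rw [h.tr_zero T ((cm_cj u).1 hT) h0, map_zero]
  hs_erg S hS T hT hfin h2 := by
    obtain ⟨T, rfl⟩ := cj_surj u T
    rw [t.W] at hT
    rw [t.trn] at hfin
    rw [h.hs_erg S hS T ((cm_cj u).1 hT) hfin (fun g hg => by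
        have h3 := h2 g hg
        rw [t.pi] at h3
        exact (cj_comm u).1 h3), map_zero]
  inv T hT h2 γ := by
    obtain ⟨T, rfl⟩ := cj_surj u T
    rw [t.W] at hT
    have h1 := h.inv T ((cm_cj u).1 hT) (fun g => by
        have h3 := h2 g
        rw [t.pi] at h3
        exact (cj_comm u).1 h3) γ
    rw [t.lam, t.lam, ← map_mul, ← map_mul, t.Om, cj_ap, cj_ap, u.inner_map_map, u.inner_map_map]
    exact h1

theorem tw_ms {m : Set Γ → (K →L[ℂ] K)} (t : Tw u π lam W Ω π' lam' W' Ω') (h : Ms lam W Ω m) :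
    Ms lam' W' Ω' fun S => cj u (m S) where
  adj S := by rw [adjoint_cj, h.adj]
  inf S T := by rw [h.inf, map_mul]
  compl S := by rw [h.compl, map_sub, map_one]
  cm S := by
    rw [t.W]
    exact (cm_cj u).2 (h.cm S)
  cov γ S := by rw [t.lam, t.lam, ← map_mul, ← map_mul, h.cov]
  om := by rw [t.Om, cj_ap, h.om]
  fin ξ ε hε := by
    obtain ⟨η, rfl⟩ := surj_vec u ξ
    obtain ⟨F, hF⟩ := h.fin η ε hε
    exact ⟨F, by rw [cj_norm_ap]; exact hF⟩
  cyc ξ hξ := by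
    obtain ⟨η, rfl⟩ := surj_vec u ξ
    rw [cj_ap] at hξ
    have h1 := h.cyc η (u.injective hξ)
    rw [mem_closure_iff_seq_limit] at h1 ⊢
    obtain ⟨x, hx, hlim⟩ := h1
    refine ⟨fun n => u (x n), fun n => ?_, (u.continuous.tendsto _).comp hlim⟩
    have h2 := hx n
    have h3 : Submodule.map (u.toLinearEquiv : K →ₗ[ℂ] K')
        (Submodule.span ℂ {η | ∃ w ∈ StarAlgebra.adjoin ℂ W, η = w Ω}) ≤
        Submodule.span ℂ {η | ∃ w ∈ StarAlgebra.adjoin ℂ W', η = w Ω'} := by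
      rw [Submodule.map_span]
      refine Submodule.span_mono ?_
      rintro _ ⟨_, ⟨w, hw, rfl⟩, rfl⟩
      refine ⟨cj u w, ?_, ?_⟩
      · have h4 : StarAlgebra.adjoin ℂ W' = (StarAlgebra.adjoin ℂ W).map (cjH u) := by
          rw [StarAlgHom.map_adjoin, t.W]
          rfl
        rw [h4]
        exact ⟨w, hw, rfl⟩
      · rw [t.Om, cj_ap]
        rfl
    exact h3 ⟨x n, h2, rfl⟩

theorem tw_uc {m : Set Γ → (K →L[ℂ] K)} (t : Tw u π lam W Ω π' lam' W' Ω') (h : UC π W Ω m) :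
    UC π' W' Ω' fun S => cj u (m S) := by
  intro δ hδ
  filter_upwards [h δ hδ] with g hg S B hB hB1 h'
  obtain ⟨B, rfl⟩ := cj_surj u B
  rw [t.W] at hB
  rw [norm_cj] at hB1
  have h1 := hg S B ((cm_cj u).1 hB) hB1 h'
  rw [t.pi, t.pi, t.Om, ← map_mul, ← map_mul, ← map_sub, cj_ap, cj_ap, cj_norm_ap]
  exact h1

end tw

section tw3

variable {k : Type} [NontriviallyNormedField k] [ProperSpace k] {K K' : Type}
  [NormedAddCommGroup K] [InnerProductSpace ℂ K] [CompleteSpace K]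
  [NormedAddCommGroup K'] [InnerProductSpace ℂ K'] [CompleteSpace K'] {u : K ≃ₗᵢ[ℂ] K'}
  {Γ : Type} [Group Γ]
  {π : G3 k →* (K →L[ℂ] K)} {lam : Γ →* (K →L[ℂ] K)}
  {W : Set (K →L[ℂ] K)} {Ω : K} {π' : G3 k →* (K' →L[ℂ] K')} {lam' : Γ →* (K' →L[ℂ] K')}
  {W' : Set (K' →L[ℂ] K')} {Ω' : K'} {w : kˣ} {q : Γ →* G3 k} {m : Set Γ → (K →L[ℂ] K)}

theorem tw_orb [MeasurableSpace k] {μ : Measure k} (t : Tw u π lam W Ω π' lam' W' Ω')
    (h : ORB μ w π lam W Ω) : ORB μ w π' lam' W' Ω' := by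
  intro g δ hδ
  obtain ⟨C, hC⟩ := h g δ hδ
  refine ⟨C, fun N T hT hT1 => ?_⟩
  obtain ⟨T, rfl⟩ := cj_surj u T
  rw [t.W] at hT
  rw [norm_cj] at hT1
  have h1 := hC N T ((cm_cj u).1 hT) hT1
  rw [t.trn]
  refine le_trans (le_of_eq ?_) h1
  refine lintegral_congr fun s => ?_
  rw [t.pi, t.Om, cj_ap, cj_ap]
  congr 1
  exact u.toLinearIsometry.enorm_map _

theorem tw_size (t : Tw u π lam W Ω π' lam' W' Ω') (h : SIZE w π Ω m q) :
    SIZE w π' Ω' (fun S => cj u (m S)) q := by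
  intro g η hη ε hε
  filter_upwards [h g η hη ε hε] with N hN
  rw [t.pi, t.Om, cj_ap, cj_norm_ap]
  exact hN

theorem tw_nws (t : Tw u π lam W Ω π' lam' W' Ω') (h : NWS w π Ω m q) :
    NWS w π' Ω' (fun S => cj u (m S)) q := by
  intro g ε hε
  obtain ⟨R, hR⟩ := h g ε hε
  refine ⟨R, fun N => ?_⟩
  rw [t.pi, t.Om, cj_ap, cj_norm_ap]
  exact hR N

theorem tw_tau (t : Tw u π lam W Ω π' lam' W' Ω') :
    Tw u (π.comp (tau k)) lam W Ω (π'.comp (tau k)) lam' W' Ω' where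
  pi g := t.pi _
  lam := t.lam
  W := t.W
  Om := t.Om

theorem tw_efam {E : PP k → (CP k →⋆ₐ[ℂ] (K →L[ℂ] K))} (t : Tw u π lam W Ω π' lam' W' Ω')
    (h : EFam w π lam W m q E) :
    EFam w π' lam' W' (fun S => cj u (m S)) q fun a => cjE u (E a) where
  cm a f := by
    rw [t.W, cjE_ap]
    exact (cm_cj u).2 (h.cm a f)
  cov γ a f := by
    rw [cjE_ap, cjE_ap, t.lam, t.lam, ← map_mul, ← map_mul, h.cov]
  pcov g a f := by
    rw [cjE_ap, cjE_ap, t.pi, t.pi, ← map_mul, ← map_mul, h.pcov]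
  dom g v A hA hv ζ ε hε := by
    obtain ⟨ζ, rfl⟩ := surj_vec u ζ
    obtain ⟨R, hR⟩ := h.dom g v A hA hv ζ ε hε
    refine ⟨R, fun T hT => ?_⟩
    filter_upwards [hR T hT] with N hN
    rw [cjE_ap, t.pi, cj_norm_ap, cj_ap, cj_norm_ap]
    exact hN
  agr a b hab ξ hξ := by
    obtain ⟨η, rfl⟩ := surj_vec u ξ
    rw [h.agr a b hab η fun f => ?_, map_zero]
    have h1 := hξ f
    rw [cjE_ap, cjE_ap, cj_ap, cj_ap] at h1
    exact u.injective h1

theorem tw_legS [MeasurableSpace k] {μ : Measure k} {E F : PP k → (CP k →⋆ₐ[ℂ] (K →L[ℂ] K))}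
    (t : Tw u π lam W Ω π' lam' W' Ω') (h : LegS μ w π lam W Ω m q E F) :
    LegS μ w π' lam' W' Ω' (fun S => cj u (m S)) q (fun a => cjE u (E a))
      fun a => cjE u (F a) where
  hw := h.hw
  pic := tw_pic t h.pic
  ms := tw_ms t h.ms
  inj := h.inj
  disc := h.disc
  uc := tw_uc t h.uc
  orb := tw_orb t h.orb
  size := tw_size t h.size
  nws := tw_nws t h.nws
  e := tw_efam t h.e
  f := tw_efam (tw_tau t) h.f

end tw3

end Vale.Agent.P092.SD
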