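import Vale.Agent.P092.SD.Main
import Vale.Agent.P092.SD.Tw

/-!
P092, TEAM D: the second leg is the flip of the first one (helper53).
-/

set_option linter.all false

open scoped InnerProductSpace ENNReal LinearAlgebra.Projectivization ZeroAtInfty
open Filter Topology ContinuousLinearMap MeasureTheory TopologicalSpace

namespace Vale.Agent.P092.SD

open Vale.Agent.P092.SR Vale.Agent.P092.H160 Vale.Agent.P092.RC

section con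

variable {E : Type} [Group E] [TopologicalSpace E] [IsTopologicalGroup E] [LocallyCompactSpace E]
  [SecondCountableTopology E] [T2Space E] [MeasurableSpace E] [BorelSpace E]
  {Γ : Subgroup E} [DiscreteTopology Γ] [MeasurableSpace (E ⧸ Γ)] [BorelSpace (E ⧸ Γ)]
  {ν : Measure (E ⧸ Γ)} [IsProbabilityMeasure ν] [Countable Γ]
  (hν : ∀ g : E, ν.map (fun x => g • x) = ν)
  {Λ : Type} [Group Λ] {α : Γ →* (Ell2 Λ →L[ℂ] Ell2 Λ)} (hα : Frame α)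

variable (ν)

/-- the flip of the two legs -/
noncomputable def swK (Λ : Type) : KK ν Λ →L[ℂ] KK ν Λ :=
  (sw : Ell2 (Λ × Λ) →L[ℂ] Ell2 (Λ × Λ)).compLpL 2 ν

theorem swK_sq : swK ν Λ * swK ν Λ = 1 := by
  have h1 := H790.comp_mul (μ := ν) (sw : Ell2 (Λ × Λ) →L[ℂ] Ell2 (Λ × Λ)) sw
  rw [H839.sw_sw, H790.comp_one] at h1
  exact h1.symm

theorem swK_swK (ξ : KK ν Λ) : swK ν Λ (swK ν Λ ξ) = ξ :=
  congrArg (fun T : KK ν Λ →L[ℂ] KK ν Λ => T ξ) (swK_sq ν)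

theorem adjoint_swK : adjoint (swK ν Λ) = swK ν Λ := by
  rw [swK, H790.comp_adjoint]
  congr 1
  rw [sw, adjoint_rei]
  rfl

/-- the flip as a unitary -/
noncomputable def flK (Λ : Type) [Group Λ] : KK ν Λ ≃ₗᵢ[ℂ] KK ν Λ :=
  LinearIsometryEquiv.mk
    (LinearEquiv.mk (swK ν Λ : KK ν Λ →ₗ[ℂ] KK ν Λ) (swK ν Λ) (swK_swK ν) (swK_swK ν))
    (fun ξ => by
      have h1 : ⟪swK ν Λ ξ, swK ν Λ ξ⟫_ℂ = ⟪ξ, ξ⟫_ℂ := by
        rw [← adjoint_inner_right, adjoint_swK, swK_swK]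
      rw [inner_self_eq_norm_sq_to_K, inner_self_eq_norm_sq_to_K] at h1
      have h2 : ‖swK ν Λ ξ‖ ^ 2 = ‖ξ‖ ^ 2 := by exact_mod_cast h1
      exact (pow_left_inj₀ (norm_nonneg _) (norm_nonneg _) two_ne_zero).mp h2)

theorem flK_ap (ξ : KK ν Λ) : flK ν Λ ξ = swK ν Λ ξ := rfl

theorem cj_flK (T : KK ν Λ →L[ℂ] KK ν Λ) : cj (flK ν Λ) T = swK ν Λ * T * swK ν Λ := rfl

theorem cj_cj_flK (T : KK ν Λ →L[ℂ] KK ν Λ) : cj (flK ν Λ) (cj (flK ν Λ) T) = T := by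
  rw [cj_flK, cj_flK]
  calc _ = (swK ν Λ * swK ν Λ) * T * (swK ν Λ * swK ν Λ) := by simp only [mul_assoc]
    _ = T := by rw [swK_sq, one_mul, mul_one]

theorem cj_con (A : Ell2 (Λ × Λ) →L[ℂ] Ell2 (Λ × Λ)) :
    cj (flK ν Λ) (A.compLpL 2 ν) = (H839.swp A).compLpL 2 ν := by
  rw [cj_flK, H839.swp, swK, mul_assoc, ← H790.comp_mul, ← H790.comp_mul]

variable {ν}

theorem cj_pic (g : E) : cj (flK ν Λ) (pic hν hα g) = pic hν hα g := by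
  have h1 : ∀ v, (sw : Ell2 (Λ × Λ) →L[ℂ] Ell2 (Λ × Λ)) * VV α v = VV α v * sw := fun v => by
    have h2 : sw * (Del (α v) * sw) = Del (α v) := H839.swp_Del fun t => hα.comm v t
    calc sw * VV α v = sw * VV α v * (sw * sw) := by rw [H839.sw_sw, mul_one]
      _ = sw * (Del (α v) * sw) * sw := by simp only [mul_assoc]; rfl
      _ = VV α v * sw := by rw [h2]; rfl
  have h3 : pic hν hα g * swK ν Λ = swK ν Λ * pic hν hα g :=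
    H34.Ind.pi_comp (H85.cdat ν hν) (V := VV α) (H839.adj_VV hα) g h1
  rw [cj_flK]
  calc _ = swK ν Λ * (pic hν hα g * swK ν Λ) := mul_assoc _ _ _
    _ = swK ν Λ * (swK ν Λ * pic hν hα g) := by rw [h3]
    _ = _ := by rw [← mul_assoc, swK_sq, one_mul]

theorem cj_indK {S : Set (E ⧸ Γ)} (hS : MeasurableSet S) :
    cj (flK ν Λ) (H790.ind ν (Ell2 (Λ × Λ)) S) = H790.ind ν (Ell2 (Λ × Λ)) S := by
  rw [cj_flK, swK, H790.ind_comp hS, mul_assoc]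
  have h1 := swK_sq ν (Λ := Λ)
  rw [swK] at h1
  rw [h1, mul_one]

theorem cj_XX : cj (flK ν Λ) '' (XX ν Λ) = XX ν Λ := by
  ext T
  constructor
  · rintro ⟨_, ⟨S, hS, rfl⟩, rfl⟩
    exact ⟨S, hS, cj_indK hS⟩
  · rintro ⟨S, hS, rfl⟩
    exact ⟨_, ⟨S, hS, rfl⟩, cj_indK hS⟩

theorem cj_l₁ (γ : Γ) : cj (flK ν Λ) (lam₁ ν α γ) = lam₂ ν α γ := by
  have h1 := cj_con ν (RR₁ α γ)
  have h2 : H839.swp (RR₁ α γ) = RR₂ α γ := H839.swp_tens _ _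
  rw [h2] at h1
  exact h1

theorem cj_l₂ (γ : Γ) : cj (flK ν Λ) (lam₂ ν α γ) = lam₁ ν α γ := by
  rw [← cj_l₁, cj_cj_flK]

theorem flK_Om : flK ν Λ (Om ν Λ) = Om ν Λ := by
  rw [flK_ap, swK, Om]
  have h1 : (sw : Ell2 (Λ × Λ) →L[ℂ] Ell2 (Λ × Λ)) (dl 1) = dl 1 := by
    rw [sw, rei_dl]; rfl
  refine Lp.ext ?_
  filter_upwards [(sw : Ell2 (Λ × Λ) →L[ℂ] Ell2 (Λ × Λ)).coeFn_compLpL (p := 2)
    (μ := ν) (Lp.const 2 ν (dl (1 : Λ × Λ))),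
    Lp.coeFn_const (p := 2) (μ := ν) (dl (1 : Λ × Λ) : Ell2 (Λ × Λ))]
    with x h2 h3
  rw [h2, h3]
  exact h1

theorem cj_r₂ : cj (flK ν Λ) '' (Set.range (lam₂ ν α)) = Set.range (lam₁ ν α) := by
  rw [← Set.range_comp]
  congr 1
  exact funext fun γ => cj_l₂ γ

theorem tw_flK : Tw (flK ν Λ) (pic hν hα) (lam₁ ν α) (XX ν Λ ∪ Set.range (lam₂ ν α)) (Om ν Λ)
    (pic hν hα) (lam₂ ν α) (XX ν Λ ∪ Set.range (lam₁ ν α)) (Om ν Λ) where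
  pi g := (cj_pic hν hα g).symm
  lam γ := (cj_l₁ γ).symm
  W := by rw [Set.image_union, cj_XX, cj_r₂]
  Om := flK_Om.symm

end con

/-- [D-EX] for the first leg: the only thing to be proved. -/
def HalfStmt : Prop :=
  ∀ [LocallyCompactSpace (G3 ℝ)] [SecondCountableTopology (G3 ℝ)] [MeasurableSpace (G3 ℝ)]
    [BorelSpace (G3 ℝ)] {Γ : Subgroup (G3 ℝ)} [DiscreteTopology Γ] [Countable Γ]
    [MeasurableSpace (G3 ℝ ⧸ Γ)] [BorelSpace (G3 ℝ ⧸ Γ)] {ν : Measure (G3 ℝ ⧸ Γ)}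
    [IsProbabilityMeasure ν] (hν : ∀ g : G3 ℝ, ν.map (fun x => g • x) = ν)
    (_ : H515.St.IsLattice Γ) (_ : ∀ g : Γ, g ≠ 1 → Set.Infinite {y : Γ | ∃ h, y = h * g * h⁻¹})
    {Λ : Type} [Group Λ] [Countable Λ]
    (_ : ∀ g : Λ, g ≠ 1 → Set.Infinite {y : Λ | ∃ h, y = h * g * h⁻¹})
    {α : Γ →* (Ell2 Λ →L[ℂ] Ell2 Λ)} (hα : Frame α),
    ∃ (w : ℝˣ) (m : Set Γ → (KK ν Λ →L[ℂ] KK ν Λ)) (q : Γ →* G3 ℝ)
      (E F : PP ℝ → (CP ℝ →⋆ₐ[ℂ] (KK ν Λ →L[ℂ] KK ν Λ))),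
      LegS volume w (pic hν hα) (lam₁ ν α) (XX ν Λ ∪ Set.range (lam₂ ν α)) (Om ν Λ) m q E F

theorem exStmt_of_half (h : HalfStmt) : ExStmt := by
  intro _ _ _ _ Γ _ _ _ _ ν _ hν hΓ hicc Λ _ _ hΛ α hα
  obtain ⟨w, m, q, E, F, h1⟩ := h hν hΓ hicc hΛ hα
  exact ⟨w, m, _, q, q, E, F, _, _, h1, tw_legS (tw_flK hν hα) h1⟩

end Vale.Agent.P092.SD
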