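import Vale.Agent.P092.SD.Defs

/-!
P092, TEAM D: the joints (helper53). Every `Stmt` is a literal `Prop`; `SD/Main.lean` derives
`Core` from them.
-/

set_option linter.all false

open scoped InnerProductSpace ENNReal LinearAlgebra.Projectivization ZeroAtInfty
open Filter Topology ContinuousLinearMap MeasureTheory TopologicalSpace

namespace Vale.Agent.P092.SD

open Vale.Agent.P092.RC (Cm TRN Moore)
open Vale.Agent.P092.H820 (inc3)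

section pic

variable {k : Type} [NontriviallyNormedField k] [ProperSpace k] {Γ K : Type}
  [Group Γ] [NormedAddCommGroup K] [InnerProductSpace ℂ K] [CompleteSpace K]

/-- (CNT) the counting principle (2) of #4334, with the growth lemma #3485 built in (not used in
the assembly; kept for the files which refer to it). `A` is any subset of `Γ`, `c * 8 ^ j` the bound
of `log ‖q γ‖` at time `2 ^ j`. -/
def CNT (w : kˣ) (π : G3 k →* (K →L[ℂ] K)) (lam : Γ →* (K →L[ℂ] K)) (W : Set (K →L[ℂ] K)) (Ω : K)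
    (m : Set Γ → (K →L[ℂ] K)) (q : Γ →* G3 k) : Prop :=
  ∀ (g : G3 k) (B : K →L[ℂ] K), Cm W B →
    (∀ n : ℕ, B * π (g * bw w ^ n * g⁻¹) = π (g * bw w ^ n * g⁻¹) * B) →
    (∀ s : k, B * π (g * un s * g⁻¹) = π (g * un s * g⁻¹) * B) →
    ∀ A : Set Γ,
      (∀ c : ℝ, Tendsto (fun j : ℕ => ENNReal.ofReal (‖(w : k)‖ ^ (3 * 2 ^ j)) *
        ∑' γ : {γ : Γ | γ ∈ A ∧ Real.log (nm (q γ)) ≤ c * 8 ^ j},
          ‖adjoint B (lam γ Ω)‖ₑ ^ 2) atTop (𝓝 0)) →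
      ∀ ζ : K, Tendsto (fun j : ℕ => m A (B (π (g * bw w ^ (2 ^ j) * g⁻¹)⁻¹ ζ))) atTop (𝓝 0)

/-- One leg with its calculi: everything the analysis delivers. `μ` is a Haar measure of `k`
(`volume` for `k = ℝ`). For the counting theorem `ct` of helper790 (#5047) all hypotheses are
fields. -/
structure LegS [MeasurableSpace k] (μ : Measure k) (w : kˣ) (π : G3 k →* (K →L[ℂ] K))
    (lam : Γ →* (K →L[ℂ] K)) (W : Set (K →L[ℂ] K)) (Ω : K) (m : Set Γ → (K →L[ℂ] K))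
    (q : Γ →* G3 k) (E F : PP k → (CP k →⋆ₐ[ℂ] (K →L[ℂ] K))) : Prop where
  hw : ‖(w : k)‖ < 1
  pic : RC.Pic π lam W Ω
  ms : Ms lam W Ω m
  inj : Function.Injective q
  /-- the image of `q` is discrete -/
  disc : ∀ C : ℝ, {γ : Γ | nm (q γ) ≤ C}.Finite
  uc : UC π W Ω m
  orb : ORB μ w π lam W Ω
  size : SIZE w π Ω m q
  nws : NWS w π Ω m q
  e : EFam w π lam W m q E
  f : EFam w (π.comp (tau k)) lam W m ((tau k).comp q) F

/-- [D-I1] incident pairs are carried by incidence -/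
def I1Stmt (k : Type) [NontriviallyNormedField k] [ProperSpace k] [MeasurableSpace k]
    (μ : Measure k) : Prop :=
  ∀ {Γ K : Type} [Group Γ] [NormedAddCommGroup K] [InnerProductSpace ℂ K] [CompleteSpace K]
    (w : kˣ) (π : G3 k →* (K →L[ℂ] K)) (lam : Γ →* (K →L[ℂ] K)) (W : Set (K →L[ℂ] K)) (Ω : K)
    (m : Set Γ → (K →L[ℂ] K)) (q : Γ →* G3 k) (E F : PP k → (CP k →⋆ₐ[ℂ] (K →L[ℂ] K))),
    LegS μ w π lam W Ω m q E F → ∀ a l, (a, l) ∈ inc3 (k := k) → Supp (E a) (F l)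

/-- [D-I2] incidence implies commutation (`k = ℝ` or ultrametric; false for `ℂ`) -/
def I2Stmt (k : Type) [NontriviallyNormedField k] [ProperSpace k] : Prop :=
  ∀ {K : Type} [NormedAddCommGroup K] [InnerProductSpace ℂ K] [CompleteSpace K]
    (β lm : CP k →⋆ₐ[ℂ] (K →L[ℂ] K)), Supp β lm → ∀ f h, Commute (β f) (lm h)

/-- [D-NJ] the number `n_J(B)` is polynomial: output of [D-KAK] + geometry. `E b f` and `F l h`
are applied to the translates of `f`, `h` by the near-wall elements with attracting point in `A`. -/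
def NJStmt (k : Type) [NontriviallyNormedField k] [ProperSpace k] : Prop :=
  ∀ {Γ K : Type} [Group Γ] [NormedAddCommGroup K] [InnerProductSpace ℂ K] [CompleteSpace K]
    (q : Γ →* G3 k), (∀ C : ℝ, {γ : Γ | nm (q γ) ≤ C}.Finite) →
    ∀ (b c l m : CP k →⋆ₐ[ℂ] (K →L[ℂ] K)), Supp b l → Supp c l → Supp c m →
      (∀ f h, Commute (b f) (l h)) → (∀ f h, Commute (c f) (l h)) →
      (∀ f h, Commute (c f) (m h)) →
    ∀ (R : ℝ) (A : Set (PP k)) (f h : CP k), LipP f → NInc (closure A) (tsupport h) →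
      Disjoint (closure A) (tsupport f) →
      ∃ T > 0, ∃ C : ℝ, ∀ (J : ℝ), 0 ≤ J → ∀ S : Finset Γ,
        (∀ γ ∈ S, NW R (q γ) ∧ Att T A (q γ) ∧ Real.log (nm (q γ)) ≤ J) → ∀ ξ : K,
          ∑ γ ∈ S, ‖m (act (tau k (q γ)⁻¹) h) (b (act (q γ)⁻¹ f) ξ)‖ ^ 2 ≤
            C * (1 + J) ^ 6 * ‖ξ‖ ^ 2

/-- [D-KEY] (4) of #4334 -/
def KeyStmt (k : Type) [NontriviallyNormedField k] [ProperSpace k] [MeasurableSpace k]
    (μ : Measure k) : Prop :=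
  ∀ {Γ K : Type} [Group Γ] [NormedAddCommGroup K] [InnerProductSpace ℂ K] [CompleteSpace K]
    (w : kˣ) (π : G3 k →* (K →L[ℂ] K)) (lam : Γ →* (K →L[ℂ] K)) (W : Set (K →L[ℂ] K)) (Ω : K)
    (m : Set Γ → (K →L[ℂ] K)) (q : Γ →* G3 k) (E F : PP k → (CP k →⋆ₐ[ℂ] (K →L[ℂ] K))),
    LegS μ w π lam W Ω m q E F →
    (∀ a l, (a, l) ∈ inc3 (k := k) → Supp (E a) (F l)) →
    (∀ a l, (a, l) ∈ inc3 (k := k) → ∀ f h, Commute (E a f) (F l h)) →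
    ∀ a b l, (a, l) ∈ inc3 (k := k) → (b, l) ∉ inc3 (k := k) → ∀ u f h : CP k, LipP f →
      NInc (tsupport u) (tsupport h) → Disjoint (tsupport u) (tsupport f) →
      E a u * E b f * F l h = 0

/-- [D-OPP] + [D-ALL] -/
def AllStmt (k : Type) [NontriviallyNormedField k] [ProperSpace k] : Prop :=
  ∀ {K : Type} [NormedAddCommGroup K] [InnerProductSpace ℂ K] [CompleteSpace K]
    (E F : PP k → (CP k →⋆ₐ[ℂ] (K →L[ℂ] K))), QP E F →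
    (∀ a b f g, Commute (E a f) (E b g)) ∧ (∀ a l f h, Commute (E a f) (F l h)) ∧
    ∀ l l' f g, Commute (F l f) (F l' g)

/-- The first half of Team D: in one leg everything commutes. -/
def LegComm (k : Type) [NontriviallyNormedField k] [ProperSpace k] [MeasurableSpace k]
    (μ : Measure k) : Prop :=
  ∀ {Γ K : Type} [Group Γ] [NormedAddCommGroup K] [InnerProductSpace ℂ K] [CompleteSpace K]
    (w : kˣ) (π : G3 k →* (K →L[ℂ] K)) (lam : Γ →* (K →L[ℂ] K)) (W : Set (K →L[ℂ] K)) (Ω : K)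
    (m : Set Γ → (K →L[ℂ] K)) (q : Γ →* G3 k) (E F : PP k → (CP k →⋆ₐ[ℂ] (K →L[ℂ] K))),
    LegS μ w π lam W Ω m q E F → QP E F ∧
    (∀ a b f g, Commute (E a f) (E b g)) ∧ (∀ a l f h, Commute (E a f) (F l h)) ∧
    ∀ l l' f g, Commute (F l f) (F l' g)

theorem legComm_of {k : Type} [NontriviallyNormedField k] [ProperSpace k] [MeasurableSpace k]
    {μ : Measure k} (h1 : I1Stmt k μ) (h2 : I2Stmt k) (h3 : KeyStmt k μ) (h4 : AllStmt k) :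
    LegComm k μ := by
  intro Γ K _ _ _ _ w π lam W Ω m q E F h
  have i1 := h1 w π lam W Ω m q E F h
  have i2 : ∀ a l, (a, l) ∈ inc3 (k := k) → ∀ f h, Commute (E a f) (F l h) :=
    fun a l hal f g => h2 (E a) (F l) (i1 a l hal) f g
  have hq : QP E F := ⟨i1, i2, h.e.agr, h.f.agr, h3 w π lam W Ω m q E F h i1 i2⟩
  exact ⟨hq, h4 E F hq⟩

/-! ### The classical leg and the cross-leg step -/

/-- [D-CLS] The calculus of the collineation `x` with `E a f = f (x • a)`,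
`F l f = f (tau x • l)`. -/
structure Cls (π : G3 k →* (K →L[ℂ] K)) (lam : Γ →* (K →L[ℂ] K)) (W : Set (K →L[ℂ] K))
    (q : Γ →* G3 k) (E F : PP k → (CP k →⋆ₐ[ℂ] (K →L[ℂ] K)))
    (Q : C₀(G3 k, ℂ) →⋆ₙₐ[ℂ] (K →L[ℂ] K)) : Prop where
  nd : ∀ ξ, (∀ ψ, Q ψ ξ = 0) → ξ = 0
  cm : ∀ ψ, Cm W (Q ψ)
  cov : ∀ γ (ψ ψ' : C₀(G3 k, ℂ)), (∀ x, ψ' x = ψ ((q γ)⁻¹ * x)) → lam γ * Q ψ * lam γ⁻¹ = Q ψ'
  pcov : ∀ h (ψ ψ' : C₀(G3 k, ℂ)), (∀ x, ψ' x = ψ (x * h)) → π h * Q ψ * π h⁻¹ = Q ψ'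
  mulE : ∀ a (f : CP k) (ψ ψ' : C₀(G3 k, ℂ)), (∀ x, ψ' x = f (x • a) * ψ x) →
    E a f * Q ψ = Q ψ'
  mulF : ∀ l (f : CP k) (ψ ψ' : C₀(G3 k, ℂ)), (∀ x, ψ' x = f (tau k x • l) * ψ x) →
    F l f * Q ψ = Q ψ'

/-- [D-CLS] (helper171) -/
def ClsStmt (k : Type) [NontriviallyNormedField k] [ProperSpace k] [MeasurableSpace k]
    (μ : Measure k) : Prop :=
  ∀ {Γ K : Type} [Group Γ] [NormedAddCommGroup K] [InnerProductSpace ℂ K] [CompleteSpace K]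
    (w : kˣ) (π : G3 k →* (K →L[ℂ] K)) (lam : Γ →* (K →L[ℂ] K)) (W : Set (K →L[ℂ] K)) (Ω : K)
    (m : Set Γ → (K →L[ℂ] K)) (q : Γ →* G3 k) (E F : PP k → (CP k →⋆ₐ[ℂ] (K →L[ℂ] K))),
    LegS μ w π lam W Ω m q E F → QP E F →
    (∀ a b f g, Commute (E a f) (E b g)) → (∀ a l f h, Commute (E a f) (F l h)) →
    (∀ l l' f g, Commute (F l f) (F l' g)) →
    ∃ Q : C₀(G3 k, ℂ) →⋆ₙₐ[ℂ] (K →L[ℂ] K), Cls π lam W q E F Q

/-- (TV) the vector state of `Ω` on the operators commuting with everything but `π` is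
`π`-invariant -/
def TV (π : G3 k →* (K →L[ℂ] K)) (lam : Γ →* (K →L[ℂ] K)) (W : Set (K →L[ℂ] K)) (Ω : K) :
    Prop :=
  ∀ Y ∈ MM lam W, ∀ h : G3 k, ⟪π h Ω, Y (π h Ω)⟫_ℂ = ⟪Ω, Y Ω⟫_ℂ

/-- [D-XC] (helper295, #5294) the two legs commute -/
def XCStmt (k : Type) [NontriviallyNormedField k] [ProperSpace k] : Prop :=
  ∀ {Γ K : Type} [Group Γ] [Countable Γ] [NormedAddCommGroup K] [InnerProductSpace ℂ K]
    [CompleteSpace K] (π : G3 k →* (K →L[ℂ] K)) (lam₁ lam₂ : Γ →* (K →L[ℂ] K))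
    (X : Set (K →L[ℂ] K)) (Ω : K) (q₁ q₂ : Γ →* G3 k)
    (E₁ F₁ E₂ F₂ : PP k → (CP k →⋆ₐ[ℂ] (K →L[ℂ] K))) (Q₁ Q₂ : C₀(G3 k, ℂ) →⋆ₙₐ[ℂ] (K →L[ℂ] K)),
    RC.Pic2 π lam₁ lam₂ X Ω → TV π lam₁ (X ∪ Set.range lam₂) Ω →
    TV π lam₂ (X ∪ Set.range lam₁) Ω →
    (∀ C : ℝ, {γ : Γ | nm (q₁ γ) ≤ C}.Finite) → (∀ C : ℝ, {γ : Γ | nm (q₂ γ) ≤ C}.Finite) →
    Cls π lam₁ (X ∪ Set.range lam₂) q₁ E₁ F₁ Q₁ → Cls π lam₂ (X ∪ Set.range lam₁) q₂ E₂ F₂ Q₂ →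
    ∀ ψ φ, Commute (Q₁ ψ) (Q₂ φ)

end pic

end Vale.Agent.P092.SD
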