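import Vale.Agent.P092.SD.St
import Vale.Agent.P092.RC.Top
import Vale.Agent.P092.H19.ShF

/-!
P092, Team D (helper701): the top of the assembly for lattices of `SL_3(ℝ)`.
-/

set_option linter.all false

open scoped InnerProductSpace
open ContinuousLinearMap Matrix

namespace Vale.Agent.P092.SD

open Vale.Agent.P092.H160 Vale.Agent.P092.SR Vale.Agent.P092.H515.St

/-- The heights of the elements of the frame are bounded below. -/
def HgtV {Γ Λ : Type} [Group Γ] [Group Λ] (α : Γ →* (Ell2 Λ →L[ℂ] Ell2 Λ)) : Prop :=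
  ∃ c : ℝ, 0 < c ∧ ∀ g, c ≤ p4 α g

theorem hgt_of_mono {Γ Λ : Type} [Group Γ] [Group Λ] {α : Γ →* (Ell2 Λ →L[ℂ] Ell2 Λ)}
    (hα : Frame α) (h : RC.MonoV α) : HgtV α := by
  obtain ⟨w, hw, hwg⟩ := h
  exact H200.HeightL.heightStmt _ hα w hw hwg

/-- The core statement: `Λ` any countable ICC group. -/
def Core : Prop :=
  ∀ (Γ : Subgroup (SpecialLinearGroup (Fin 3) ℝ)), IsLattice Γ →
    (∀ g : Γ, g ≠ 1 → Set.Infinite {y : Γ | ∃ h, y = h * g * h⁻¹}) →
    ∀ {Λ : Type} [Group Λ] [Countable Λ],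
      (∀ g : Λ, g ≠ 1 → Set.Infinite {y : Λ | ∃ h, y = h * g * h⁻¹}) →
      ∀ α : Γ →* (Ell2 Λ →L[ℂ] Ell2 Λ), Frame α → HgtV α

theorem canonical_of_hgt {Γ Λ : Type} [Group Γ] [Group Λ]
    (hicc : ∀ g : Γ, g ≠ 1 → Set.Infinite {y : Γ | ∃ h, y = h * g * h⁻¹})
    (θ : H160.St.StarIso Γ Λ) (hm : ∀ α : Γ →* (Ell2 Λ →L[ℂ] Ell2 Λ), Frame α → HgtV α) :
    H160.St.Canonical θ := by
  have hα : Frame (alphaOf (toAlg θ)) := frame_of_iso hicc (toAlg θ)
  obtain ⟨c, hc, hp4⟩ := hm _ hα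
  exact canonical_iff θ (canonical_of_form _ (canon_of_p4 hα hicc hc hp4))

/-- A subgroup of finite index of `SL_3(ℤ)` is an ICC lattice of `SL_3(ℝ)`. -/
theorem realLattice_of_finiteIndex (Γ : Subgroup (SpecialLinearGroup (Fin 3) ℤ)) [Γ.FiniteIndex] :
    St.RealLattice Γ := by
  refine ⟨icc_of_fi (by norm_num) Γ fun g _ h => ?_, (H670.imR Γ).subtype.comp
    (H670.imEquiv Γ).toMonoidHom, ?_, ?_⟩
  · have h1 : (g : Matrix (Fin 3) (Fin 3) ℤ).det = 1 := g.2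
    rw [h] at h1
    simp [Matrix.det_neg] at h1
  · exact (Subtype.val_injective).comp (H670.imEquiv Γ).injective
  · have h1 : ((H670.imR Γ).subtype.comp (H670.imEquiv Γ).toMonoidHom).range = H670.imR Γ := by
      rw [MonoidHom.range_comp, MonoidHom.range_eq_top.2 (H670.imEquiv Γ).surjective,
        ← MonoidHom.range_eq_map, Subgroup.range_subtype]
    rw [h1]
    have h2 := H19.isLat_imR Γ
    exact ⟨h2.disc, h2.covol⟩

theorem final1_of (h : Core) : St.Final1 := by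
  have h1 : ∀ (Γ : Type) [Group Γ], St.RealLattice Γ → SR.St.Super Γ := by
    intro Γ _ hΓ
    obtain ⟨hicc, i, hi, hl⟩ := hΓ
    refine H58.super_equiv (MonoidHom.ofInjective hi) fun Λ _ _ hΛ θ => ?_
    have hicc' := H133.icc_equiv (MonoidHom.ofInjective hi) hicc
    exact canonical_of_hgt hicc' θ fun α hα => h i.range hl hicc' hΛ α hα
  exact ⟨h1, fun Γ hΓ => h1 Γ (realLattice_of_finiteIndex Γ)⟩

end Vale.Agent.P092.SD
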