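import Vale.Agent.P092.RC.Defs
import Vale.Agent.P092.H820.Pn

/-!
P092, TEAM D (one simple factor, the group `SL_3(k)`, `k = ℝ`; everything which does not use the
order of `ℝ` is stated for a local field `k`): interface file. Architect: helper53.

Route: helper179's `opposite pairs commute` (#4334). One leg at a time, with coefficients: the
picture `RC.Pic π lam W Ω` of Team C (helper739) with `G = SL_3(k)`, together with the
multiplication operators `m S`, `S ⊆ Γ` (structure `Ms`).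

`E a`, `a` a point of the source plane, are unital *-homomorphisms on `C(PP k, ℂ)`, functions of
the points of the target plane; `F l`, `l` a line of the source plane, the same for the lines of
the target plane. Lines are given by their coordinates, i.e. they are also elements of `PP k`, and
`(x, l) ∈ inc3` means incidence. The dual picture is obtained from `tau g = (g⁻¹)ᵀ`.
-/

set_option linter.all false

open scoped InnerProductSpace ENNReal LinearAlgebra.Projectivization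
open Filter Topology ContinuousLinearMap MeasureTheory TopologicalSpace

namespace Vale.Agent.P092.SD

open Vale.Agent.P092.RC (Cm TRN Moore)
open Vale.Agent.P092.H820 (inc3)

/-! ### The group and the plane -/

section geo

/-- the group `SL_3(k)` -/
abbrev G3 (k : Type) [Field k] := Matrix.SpecialLinearGroup (Fin 3) k

/-- the projective plane; also the dual plane, in coordinates -/
abbrev PP (k : Type) [Field k] := ℙ k (Fin 3 → k)

variable {k : Type} [NontriviallyNormedField k]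

/-- the inverse transpose -/
def tau (k : Type) [Field k] : G3 k →* G3 k where
  toFun g := ⟨(g⁻¹).1.transpose, by rw [Matrix.det_transpose]; exact (g⁻¹).2⟩
  map_one' := by
    apply Subtype.ext
    simp
  map_mul' g h := by
    apply Subtype.ext
    change ((g * h)⁻¹).1.transpose = (g⁻¹).1.transpose * (h⁻¹).1.transpose
    rw [mul_inv_rev, Matrix.SpecialLinearGroup.coe_mul, Matrix.transpose_mul]

/-- the point `[v]` -/
def pt (k : Type) [Field k] (v : Fin 3 → k) (hv : v ≠ 0) : PP k := Projectivization.mk k v hv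

/-- the coordinate points `[e_i]`; as lines: `x_i = 0` -/
def ept (k : Type) [Field k] (i : Fin 3) : PP k :=
  pt k (Pi.single i 1) (by
    intro h
    have := congrFun h i
    simp at this)

/-- `diag(w⁻², w, w)`, a wall element fixing the point `[e_0]`; `w` is a scalar with `‖w‖ < 1` -/
def bw {k : Type} [Field k] (w : kˣ) : G3 k :=
  ⟨Matrix.diagonal ![((w⁻¹ : kˣ) : k) ^ 2, (w : k), (w : k)], by
    rw [Matrix.det_diagonal, Fin.prod_univ_three]
    simp only [Matrix.cons_val_zero, Matrix.cons_val_one, Matrix.cons_val]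
    have h : ((w⁻¹ : kˣ) : k) * (w : k) = 1 := by rw [← Units.val_mul]; simp
    calc ((w⁻¹ : kˣ) : k) ^ 2 * w * w = (((w⁻¹ : kˣ) : k) * (w : k)) ^ 2 := by ring
      _ = 1 := by rw [h, one_pow]⟩

/-- the root group `1 + s E_01` -/
def un {k : Type} [Field k] (s : k) : G3 k :=
  Matrix.SpecialLinearGroup.transvection (show (0 : Fin 3) ≠ 1 by decide) s

/-- the maximum of the norms of the entries -/
noncomputable def nm (h : G3 k) : ℝ := ‖(fun i j => h.1 i j : Fin 3 → Fin 3 → k)‖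

/-- near-wall elements of type 1 (one large singular value): `σ₂ ≤ R σ₃` -/
def NW (R : ℝ) (h : G3 k) : Prop := nm h⁻¹ ^ 2 ≤ R * nm h

/-- the attracting point of `h` is in `A`, up to an error `1/T`: `h` is close to a matrix of rank
one with image in `A` -/
def Att (T : ℝ) (A : Set (PP k)) (h : G3 k) : Prop :=
  ∃ (v φ : Fin 3 → k) (hv : v ≠ 0), pt k v hv ∈ A ∧ ∀ i j, ‖h.1 i j - v i * φ j‖ ≤ nm h / T

/-- functions of the plane -/
abbrev CP (k : Type) [NontriviallyNormedField k] := C(PP k, ℂ)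

/-- translation of functions: `act g f = f ∘ g⁻¹` -/
noncomputable def act (g : G3 k) (f : CP k) : CP k :=
  ⟨fun x => f (g⁻¹ • x), f.continuous.comp (continuous_const_smul g⁻¹)⟩

/-- Lipschitz functions -/
def LipP (f : CP k) : Prop := ∃ C : ℝ, ∀ (v w : Fin 3 → k) (hv : v ≠ 0) (hw : w ≠ 0),
  ‖v‖ = 1 → ‖w‖ = 1 → ‖f (pt k v hv) - f (pt k w hw)‖ ≤ C * ‖v - w‖

/-- no point of `A` is on a line of `B` -/
def NInc (A B : Set (PP k)) : Prop := ∀ x ∈ A, ∀ l ∈ B, (x, l) ∉ inc3 (k := k)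

end geo

/-! ### The picture of one leg -/

section pic

variable {k : Type} [NontriviallyNormedField k] [ProperSpace k] {G Γ K : Type} [Group G] [TopologicalSpace G]
  [Group Γ] [NormedAddCommGroup K] [InnerProductSpace ℂ K] [CompleteSpace K]

/-- The multiplication operators `m S`, `S ⊆ Γ`: `m S` is the projection onto the closed span of
the vectors `w (lam γ Ω)`, `γ ∈ S`, `w` in the algebra generated by `W`. -/
structure Ms (lam : Γ →* (K →L[ℂ] K)) (W : Set (K →L[ℂ] K)) (Ω : K)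
    (m : Set Γ → (K →L[ℂ] K)) : Prop where
  adj : ∀ S, adjoint (m S) = m S
  inf : ∀ S T, m (S ∩ T) = m S * m T
  compl : ∀ S, m Sᶜ = 1 - m S
  cm : ∀ S, Cm W (m S)
  cov : ∀ γ S, lam γ * m S * lam γ⁻¹ = m ((fun x => γ * x) '' S)
  om : m {1} Ω = Ω
  fin : ∀ ξ, ∀ ε > 0, ∃ F : Finset Γ, ‖m ((F : Set Γ))ᶜ ξ‖ ≤ ε
  cyc : ∀ ξ, m {1} ξ = ξ →
    ξ ∈ closure (Submodule.span ℂ {η | ∃ w ∈ StarAlgebra.adjoin ℂ W, η = w Ω} : Set K)

/-- the fixed algebra `𝓜`: it commutes with `W` and `lam` -/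
def MM (lam : Γ →* (K →L[ℂ] K)) (W : Set (K →L[ℂ] K)) : Set (K →L[ℂ] K) :=
  {Z | Cm W Z ∧ ∀ γ, Z * lam γ = lam γ * Z}

/-- `⟨· Ω, Ω⟩` is a trace on `𝓜` -/
def TrM (lam : Γ →* (K →L[ℂ] K)) (W : Set (K →L[ℂ] K)) (Ω : K) : Prop :=
  ∀ Y ∈ MM lam W, ∀ Z ∈ MM lam W, ⟪Ω, Y (Z Ω)⟫_ℂ = ⟪Ω, Z (Y Ω)⟫_ℂ

/-- (UC) constant fields almost commute with small elements of the group, uniformly -/
def UC (π : G →* (K →L[ℂ] K)) (W : Set (K →L[ℂ] K)) (Ω : K) (m : Set Γ → (K →L[ℂ] K)) : Prop :=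
  ∀ δ > 0, ∀ᶠ g in 𝓝 (1 : G), ∀ S, ∀ B, Cm W B → ‖B‖ ≤ 1 → ∀ h,
    ‖(m S * π g - π g * m S) (B (π h Ω))‖ ≤ δ

/-- (ORB) the orbit of `Ω` along the expanded root group is spread out -/
def ORB [MeasurableSpace k] (μ : Measure k) (w : kˣ) (π : G3 k →* (K →L[ℂ] K))
    (lam : Γ →* (K →L[ℂ] K)) (W : Set (K →L[ℂ] K)) (Ω : K) : Prop :=
  ∀ g : G3 k, ∀ δ > 0, ∃ C : ℝ, ∀ N : ℕ, ∀ T, Cm W T → ‖T‖ ≤ 1 →
    ∫⁻ s in Metric.closedBall (0 : k) 1, ‖T (π (g * bw w ^ N * un s * g⁻¹)⁻¹ Ω)‖ₑ ^ 2 ∂μ ≤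
      ENNReal.ofReal (C * ‖(w : k)‖ ^ (3 * N)) * TRN lam Ω T + ENNReal.ofReal δ

/-- (SIZE) the sizes `log ‖q γ‖` of `π(b^N)⁻¹ Ω` grow subexponentially: output of the growth
lemma #3485 (which gives much more: polynomial growth) -/
def SIZE (w : kˣ) (π : G3 k →* (K →L[ℂ] K)) (Ω : K) (m : Set Γ → (K →L[ℂ] K))
    (q : Γ →* G3 k) : Prop :=
  ∀ g : G3 k, ∀ η > 0, ∀ ε > 0, ∀ᶠ N : ℕ in atTop,
    ‖m {γ | Real.exp (Real.exp (η * N)) < nm (q γ)} (π (g * bw w ^ N * g⁻¹)⁻¹ Ω)‖ ≤ ε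

/-- (NWS) near-wall mass (type 1), uniformly in `N` -/
def NWS (w : kˣ) (π : G3 k →* (K →L[ℂ] K)) (Ω : K) (m : Set Γ → (K →L[ℂ] K))
    (q : Γ →* G3 k) : Prop :=
  ∀ g : G3 k, ∀ ε > 0, ∃ R : ℝ, ∀ N : ℕ,
    ‖m {γ | ¬ NW R (q γ)} (π (g * bw w ^ N * g⁻¹)⁻¹ Ω)‖ ≤ ε

/-- The boundary calculi `E a` of the points `a` of the source plane. For the lines:
`EFam w (π.comp (tau k)) lam W m ((tau k).comp q) F`. -/
structure EFam (w : kˣ) (π : G3 k →* (K →L[ℂ] K)) (lam : Γ →* (K →L[ℂ] K))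
    (W : Set (K →L[ℂ] K)) (m : Set Γ → (K →L[ℂ] K)) (q : Γ →* G3 k)
    (E : PP k → (CP k →⋆ₐ[ℂ] (K →L[ℂ] K))) : Prop where
  cm : ∀ a f, Cm W (E a f)
  cov : ∀ γ a f, lam γ * E a f * lam γ⁻¹ = E a (act (q γ) f)
  pcov : ∀ g a f, π g * E a f * π g⁻¹ = E (g • a) f
  /-- domination by the limits of the cut-offs -/
  dom : ∀ (g : G3 k) (u : CP k) (A : Set (PP k)), IsOpen A → tsupport u ⊆ A → ∀ ζ : K, ∀ ε > 0,
    ∃ R : ℝ, ∀ T > 0, ∀ᶠ N : ℕ in atTop,
      ‖E (g • ept k 0) u ζ‖ ≤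
        ‖u‖ * ‖m {γ | NW R (q γ) ∧ Att T A (q γ)} (π (g * bw w ^ N * g⁻¹)⁻¹ ζ)‖ + ε
  /-- two different points agree nowhere -/
  agr : ∀ a b, a ≠ b → ∀ ξ, (∀ f, E a f ξ = E b f ξ) → ξ = 0

/-- Support on the incidence variety, for a pair (point calculus, line calculus). -/
def Supp (β lm : CP k →⋆ₐ[ℂ] (K →L[ℂ] K)) : Prop :=
  ∀ u h : CP k, NInc (tsupport u) (tsupport h) → β u * lm h = 0

/-- The quantum plane: everything (5), (6) of #4334 need. -/
structure QP (E F : PP k → (CP k →⋆ₐ[ℂ] (K →L[ℂ] K))) : Prop where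
  inc : ∀ a l, (a, l) ∈ inc3 (k := k) → Supp (E a) (F l)
  com : ∀ a l, (a, l) ∈ inc3 (k := k) → ∀ f h, Commute (E a f) (F l h)
  agrE : ∀ a b, a ≠ b → ∀ ξ, (∀ f, E a f ξ = E b f ξ) → ξ = 0
  agrF : ∀ a b, a ≠ b → ∀ ξ, (∀ f, F a f ξ = F b f ξ) → ξ = 0
  /-- (KEY) -/
  key : ∀ a b l, (a, l) ∈ inc3 (k := k) → (b, l) ∉ inc3 (k := k) → ∀ u f h : CP k, LipP f →
    NInc (tsupport u) (tsupport h) → Disjoint (tsupport u) (tsupport f) →
    E a u * E b f * F l h = 0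

end pic

end Vale.Agent.P092.SD
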