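import Vale.Agent.P092.SD.Blocks
import Vale.Agent.P092.SD.Top
import Vale.Agent.P092.H34.PicD
import Vale.Agent.P092.H515.LatSl
import Vale.Agent.P092.H303.Form

/-!
P092, TEAM D: the concrete joints and the assembly of `Core` (helper53).
-/

set_option linter.all false

open scoped InnerProductSpace ENNReal LinearAlgebra.Projectivization ZeroAtInfty
open Filter Topology ContinuousLinearMap MeasureTheory TopologicalSpace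

namespace Vale.Agent.P092.SD

open Vale.Agent.P092.SR Vale.Agent.P092.H160 Vale.Agent.P092.RC

/-- [D-EX] the concrete picture: both legs and their calculi -/
def ExStmt : Prop :=
  ∀ [LocallyCompactSpace (G3 ℝ)] [SecondCountableTopology (G3 ℝ)] [MeasurableSpace (G3 ℝ)]
    [BorelSpace (G3 ℝ)] {Γ : Subgroup (G3 ℝ)} [DiscreteTopology Γ] [Countable Γ]
    [MeasurableSpace (G3 ℝ ⧸ Γ)] [BorelSpace (G3 ℝ ⧸ Γ)] {ν : Measure (G3 ℝ ⧸ Γ)}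
    [IsProbabilityMeasure ν] (hν : ∀ g : G3 ℝ, ν.map (fun x => g • x) = ν)
    (_ : H515.St.IsLattice Γ) (_ : ∀ g : Γ, g ≠ 1 → Set.Infinite {y : Γ | ∃ h, y = h * g * h⁻¹})
    {Λ : Type} [Group Λ] [Countable Λ]
    (_ : ∀ g : Λ, g ≠ 1 → Set.Infinite {y : Λ | ∃ h, y = h * g * h⁻¹})
    {α : Γ →* (Ell2 Λ →L[ℂ] Ell2 Λ)} (hα : Frame α),
    ∃ (w : ℝˣ) (m₁ m₂ : Set Γ → (KK ν Λ →L[ℂ] KK ν Λ)) (q₁ q₂ : Γ →* G3 ℝ)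
      (E₁ F₁ E₂ F₂ : PP ℝ → (CP ℝ →⋆ₐ[ℂ] (KK ν Λ →L[ℂ] KK ν Λ))),
      LegS volume w (pic hν hα) (lam₁ ν α) (XX ν Λ ∪ Set.range (lam₂ ν α)) (Om ν Λ) m₁ q₁ E₁ F₁ ∧
      LegS volume w (pic hν hα) (lam₂ ν α) (XX ν Λ ∪ Set.range (lam₁ ν α)) (Om ν Λ) m₂ q₂ E₂ F₂

/-- [D-PIC] (helper34) and (TV) -/
def PicStmt : Prop :=
  ∀ [LocallyCompactSpace (G3 ℝ)] [SecondCountableTopology (G3 ℝ)] [MeasurableSpace (G3 ℝ)]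
    [BorelSpace (G3 ℝ)] {Γ : Subgroup (G3 ℝ)} [DiscreteTopology Γ] [Countable Γ]
    [MeasurableSpace (G3 ℝ ⧸ Γ)] [BorelSpace (G3 ℝ ⧸ Γ)] {ν : Measure (G3 ℝ ⧸ Γ)}
    [IsProbabilityMeasure ν] (hν : ∀ g : G3 ℝ, ν.map (fun x => g • x) = ν)
    (_ : H515.St.IsLattice Γ) (_ : ∀ g : Γ, g ≠ 1 → Set.Infinite {y : Γ | ∃ h, y = h * g * h⁻¹})
    {Λ : Type} [Group Λ] [Countable Λ]
    (_ : ∀ g : Λ, g ≠ 1 → Set.Infinite {y : Λ | ∃ h, y = h * g * h⁻¹})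
    {α : Γ →* (Ell2 Λ →L[ℂ] Ell2 Λ)} (hα : Frame α),
    Pic2 (pic hν hα) (lam₁ ν α) (lam₂ ν α) (XX ν Λ) (Om ν Λ) ∧
    TV (pic hν hα) (lam₁ ν α) (XX ν Λ ∪ Set.range (lam₂ ν α)) (Om ν Λ) ∧
    TV (pic hν hα) (lam₂ ν α) (XX ν Λ ∪ Set.range (lam₁ ν α)) (Om ν Λ)

/-- [D-END] (helper171, with `H264.mono_of_op`) -/
def EndStmt : Prop :=
  ∀ [LocallyCompactSpace (G3 ℝ)] [SecondCountableTopology (G3 ℝ)] [MeasurableSpace (G3 ℝ)]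
    [BorelSpace (G3 ℝ)] {Γ : Subgroup (G3 ℝ)} [DiscreteTopology Γ] [Countable Γ]
    [MeasurableSpace (G3 ℝ ⧸ Γ)] [BorelSpace (G3 ℝ ⧸ Γ)] {ν : Measure (G3 ℝ ⧸ Γ)}
    [IsProbabilityMeasure ν] (hν : ∀ g : G3 ℝ, ν.map (fun x => g • x) = ν)
    {Λ : Type} [Group Λ] [Countable Λ] {α : Γ →* (Ell2 Λ →L[ℂ] Ell2 Λ)} (hα : Frame α)
    (q₁ q₂ : Γ →* G3 ℝ)
    (E₁ F₁ E₂ F₂ : PP ℝ → (CP ℝ →⋆ₐ[ℂ] (KK ν Λ →L[ℂ] KK ν Λ)))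
    (Q₁ Q₂ : C₀(G3 ℝ, ℂ) →⋆ₙₐ[ℂ] (KK ν Λ →L[ℂ] KK ν Λ)),
    Pic2 (pic hν hα) (lam₁ ν α) (lam₂ ν α) (XX ν Λ) (Om ν Λ) →
    Function.Injective q₁ → Function.Injective q₂ →
    (∀ C : ℝ, {γ : Γ | nm (q₁ γ) ≤ C}.Finite) → (∀ C : ℝ, {γ : Γ | nm (q₂ γ) ≤ C}.Finite) →
    Cls (pic hν hα) (lam₁ ν α) (XX ν Λ ∪ Set.range (lam₂ ν α)) q₁ E₁ F₁ Q₁ →
    Cls (pic hν hα) (lam₂ ν α) (XX ν Λ ∪ Set.range (lam₁ ν α)) q₂ E₂ F₂ Q₂ →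
    (∀ ψ φ, Commute (Q₁ ψ) (Q₂ φ)) → RC.MonoV α

/-- **Assembly.** -/
theorem core_of (hLC : LegComm ℝ volume) (hCls : ClsStmt ℝ volume) (hXC : XCStmt ℝ)
    (hP : PicStmt) (hEx : ExStmt) (hE : EndStmt) : Core := by
  intro Γ hΓ hicc Λ _ _ hΛ α hα
  haveI h1 : LocallyCompactSpace (G3 ℝ) := H303.locallyCompact_SL
  haveI h2 : SecondCountableTopology (G3 ℝ) := H303.secondCountable_SL
  letI : MeasurableSpace (G3 ℝ) := borel _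
  haveI : BorelSpace (G3 ℝ) := ⟨rfl⟩
  haveI hd : DiscreteTopology Γ := hΓ.disc
  haveI hc : Countable Γ := H790.countable_of_discrete (E := G3 ℝ) Γ
  letI : MeasurableSpace (G3 ℝ ⧸ Γ) := borel _
  haveI : BorelSpace (G3 ℝ ⧸ Γ) := ⟨rfl⟩
  obtain ⟨ν, hP', hν⟩ := H515.IsLattice.exists_prob (Λ := Γ) ⟨hΓ.disc, hΓ.covol⟩
  obtain ⟨p2, tv1, tv2⟩ := hP (Γ := Γ) hν hΓ hicc hΛ hα
  obtain ⟨w, m₁, m₂, q₁, q₂, E₁, F₁, E₂, F₂, l1, l2⟩ := hEx (Γ := Γ) hν hΓ hicc hΛ hα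
  obtain ⟨qp1, a1, b1, c1⟩ := hLC w _ _ _ _ m₁ q₁ E₁ F₁ l1
  obtain ⟨qp2, a2, b2, c2⟩ := hLC w _ _ _ _ m₂ q₂ E₂ F₂ l2
  obtain ⟨Q₁, hQ1⟩ := hCls w _ _ _ _ m₁ q₁ E₁ F₁ l1 qp1 a1 b1 c1
  obtain ⟨Q₂, hQ2⟩ := hCls w _ _ _ _ m₂ q₂ E₂ F₂ l2 qp2 a2 b2 c2
  have hX := hXC _ _ _ _ _ q₁ q₂ E₁ F₁ E₂ F₂ Q₁ Q₂ p2 tv1 tv2 l1.disc l2.disc hQ1 hQ2
  exact hgt_of_mono hα
    (hE hν hα q₁ q₂ E₁ F₁ E₂ F₂ Q₁ Q₂ p2 l1.inj l2.inj l1.disc l2.disc hQ1 hQ2 hX)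

theorem final1 (h1 : I1Stmt ℝ volume) (h2 : I2Stmt ℝ) (h3 : KeyStmt ℝ volume) (h4 : AllStmt ℝ)
    (hCls : ClsStmt ℝ volume) (hXC : XCStmt ℝ) (hP : PicStmt) (hEx : ExStmt) (hE : EndStmt) :
    St.Final1 :=
  final1_of (core_of (legComm_of h1 h2 h3 h4) hCls hXC hP hEx hE)

end Vale.Agent.P092.SD
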