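import Vale.Agent.P092.SD.Top

/-!
P092, Team D (helper701): `SL_3(ℤ)` is an ICC lattice of `SL_3(ℝ)`, and the top in the form
`MonoV` and for all amplifications.
-/

set_option linter.all false

open scoped InnerProductSpace
open ContinuousLinearMap Matrix

namespace Vale.Agent.P092.SD

open Vale.Agent.P092.H160 Vale.Agent.P092.SR Vale.Agent.P092.H515.St

theorem realLattice_equiv {Γ Γ' : Type} [Group Γ] [Group Γ'] (e : Γ ≃* Γ')
    (h : St.RealLattice Γ') : St.RealLattice Γ := by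
  obtain ⟨h1, i, hi, hl⟩ := h
  refine ⟨H133.icc_equiv e.symm h1, i.comp e.toMonoidHom, hi.comp e.injective, ?_⟩
  have h2 : (i.comp e.toMonoidHom).range = i.range := by
    rw [MonoidHom.range_comp, MonoidHom.range_eq_top.2 e.surjective, ← MonoidHom.range_eq_map]
  rw [h2]
  exact hl

theorem realLattice_sl3z : St.RealLattice (SpecialLinearGroup (Fin 3) ℤ) := by
  haveI : (⊤ : Subgroup (SpecialLinearGroup (Fin 3) ℤ)).FiniteIndex := inferInstance
  exact realLattice_equiv (Subgroup.topEquiv (G := SpecialLinearGroup (Fin 3) ℤ)).symm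
    (realLattice_of_finiteIndex ⊤)

/-- The core statement with the monomial vector as output. -/
def CoreMono : Prop :=
  ∀ (Γ : Subgroup (SpecialLinearGroup (Fin 3) ℝ)), IsLattice Γ →
    (∀ g : Γ, g ≠ 1 → Set.Infinite {y : Γ | ∃ h, y = h * g * h⁻¹}) →
    ∀ {Λ : Type} [Group Λ] [Countable Λ],
      (∀ g : Λ, g ≠ 1 → Set.Infinite {y : Λ | ∃ h, y = h * g * h⁻¹}) →
      ∀ α : Γ →* (Ell2 Λ →L[ℂ] Ell2 Λ), Frame α → RC.MonoV α

theorem core_of_mono (h : CoreMono) : Core :=
  fun Γ hΓ hicc _ _ _ hΛ α hα => hgt_of_mono hα (h Γ hΓ hicc hΛ α hα)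

/-- The final statement of the hand-in, `t = 1`. -/
theorem lattice_super_of (h : St.Final1) :
    (∀ (Γ : Type) [Group Γ], St.RealLattice Γ → SR.St.Super Γ) ∧
      SR.St.Super (SpecialLinearGroup (Fin 3) ℤ) :=
  ⟨h.1, h.1 _ realLattice_sl3z⟩

/-- The final statement of the hand-in, all amplifications. -/
theorem lattice_superAll_of
    (h : ∀ (Γ : Type) [Group Γ], St.RealLattice Γ → SR.St.SuperAll Γ) :
    (∀ (Γ : Type) [Group Γ], St.RealLattice Γ → SR.St.SuperAll Γ) ∧
      SR.St.SuperAll (SpecialLinearGroup (Fin 3) ℤ) :=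
  ⟨h, h _ realLattice_sl3z⟩

end Vale.Agent.P092.SD
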