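import Vale.Agent.P092.SD.Rest
import Vale.Agent.P092.SD.Z
import Vale.Agent.P092.H805.HalfR

/-!
P092, TEAM D: every ICC lattice of `SL_3(ℝ)` is `W*`-superrigid; in particular `SL_3(ℤ)`.
-/

set_option linter.all false

open MeasureTheory

namespace Vale.Agent.P092.SD

theorem final1_all : St.Final1 := final1_rest H805.HalfR.halfStmt

theorem lattice_super : (∀ (Γ : Type) [Group Γ], St.RealLattice Γ → SR.St.Super Γ) ∧
    SR.St.Super (Matrix.SpecialLinearGroup (Fin 3) ℤ) :=
  lattice_super_of final1_all

end Vale.Agent.P092.SD
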