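import Vale.Agent.P092.SD.Main
import Vale.Agent.P092.SD.Flip
import Vale.Agent.P092.SD.Z
import Vale.Agent.P092.H596.I1
import Vale.Agent.P092.H613.AllS
import Vale.Agent.P092.H68.KeyR
import Vale.Agent.P092.H171.Cls
import Vale.Agent.P092.H34.PicR
import Vale.Agent.P092.H264.EndD

/-!
P092, TEAM D (helper701): the final statement from the two joints which are proved last.
-/

set_option linter.all false

open MeasureTheory

namespace Vale.Agent.P092.SD

theorem final1_two (hXC : XCStmt ℝ) (hH : HalfStmt) : St.Final1 :=
  final1 H596.i1Stmt H613.i2Stmt H68.keyStmt H613.allStmt (H171.clsD volume) hXC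
    H34.PicC.picStmtR (exStmt_of_half hH) H264.Cl.endStmt

end Vale.Agent.P092.SD
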