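import Vale.Agent.P092.SR.St

/-!
P092, Team D (helper701): literal forms of the final statements for lattices in `SL_3(ℝ)`.
Only definitions.
-/

open Vale.Agent.P092.H160.St Vale.Agent.P092.H103.St Vale.Agent.P092.H515.St
open Vale.Agent.P092.SR.St

namespace Vale.Agent.P092.SD.St

/-- `Γ` is an ICC lattice in `SL_3(ℝ)`. -/
def RealLattice (Γ : Type) [Group Γ] : Prop :=
  ICC Γ ∧ ∃ i : Γ →* Matrix.SpecialLinearGroup (Fin 3) ℝ, Function.Injective i ∧ IsLattice i.range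

/-- Version R1 (both groups are lattices), `t = 1`. -/
def FinalR1 : Prop :=
  (∀ (Γ Λ : Type) [Group Γ] [Group Λ], RealLattice Γ → RealLattice Λ →
    ∀ θ : StarIso Γ Λ, Canonical θ) ∧
  ∀ Γ Λ : Subgroup (Matrix.SpecialLinearGroup (Fin 3) ℤ), Γ.FiniteIndex → Λ.FiniteIndex →
    ∀ θ : StarIso Γ Λ, Canonical θ

/-- Version R2 (`Λ` is any countable ICC group), `t = 1`. -/
def Final1 : Prop :=
  (∀ (Γ : Type) [Group Γ], RealLattice Γ → Super Γ) ∧
  ∀ Γ : Subgroup (Matrix.SpecialLinearGroup (Fin 3) ℤ), Γ.FiniteIndex → Super Γ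

/-- Version R2 for all `t`. -/
def FinalAll : Prop :=
  (∀ (Γ : Type) [Group Γ], RealLattice Γ → SuperAll Γ) ∧
  ∀ Γ : Subgroup (Matrix.SpecialLinearGroup (Fin 3) ℤ), Γ.FiniteIndex → SuperAll Γ

end Vale.Agent.P092.SD.St
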